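import Mathlib
import Vale.Agent.P219.Mollify
import Vale.Agent.P219.Univ.Algebra

/-!
# The maps `x ↦ x - t • X x`: Jacobian, change of variables and the Piola identity
-/

open MeasureTheory Filter Topology Set
open scoped ENNReal ContDiff NNReal RealInnerProductSpace

namespace Vale.Agent.P219.Univ.FirstVar

open Vale.Agent.P219

noncomputable section

variable {n : ℕ}

/-- The deformation. -/
def disp (X : Space n → Space n) (t : ℝ) (x : Space n) : Space n := x - t • X x

/-- The derivative of the deformation. -/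
def dDisp (X : Space n → Space n) (t : ℝ) (x : Space n) : Space n →L[ℝ] Space n :=
  1 - t • fderiv ℝ X x

/-- The matrix of an endomorphism. -/
def mat (L : Space n →L[ℝ] Space n) : Matrix (Fin n) (Fin n) ℝ :=
  Matrix.of fun i j => L (EuclideanSpace.single j (1 : ℝ)) i

/-- The Jacobian of the deformation. -/
def jac (X : Space n → Space n) (t : ℝ) (x : Space n) : ℝ := (dDisp X t x).det

lemma toMatrix_eq (L : Space n →L[ℝ] Space n) :
    LinearMap.toMatrix (EuclideanSpace.basisFun (Fin n) ℝ).toBasis
      (EuclideanSpace.basisFun (Fin n) ℝ).toBasis (L : Space n →ₗ[ℝ] Space n) = mat L := by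
  ext i j
  simp [LinearMap.toMatrix_apply, mat]

lemma jac_eq (X : Space n → Space n) (t : ℝ) (x : Space n) :
    jac X t x = Matrix.det (1 + (-t) • mat (fderiv ℝ X x)) := by
  rw [jac, ContinuousLinearMap.det,
    ← LinearMap.det_toMatrix (EuclideanSpace.basisFun (Fin n) ℝ).toBasis, toMatrix_eq]
  congr 1
  ext i j
  simp only [mat, dDisp, Matrix.of_apply, Matrix.add_apply, Matrix.smul_apply, Matrix.one_apply]
  by_cases h : i = j <;> simp [h, sub_eq_add_neg]

lemma trace_mat {X : Space n → Space n} {x : Space n} (hX : DifferentiableAt ℝ X x) :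
    (mat (fderiv ℝ X x)).trace = divg X x := by
  refine Finset.sum_congr rfl fun i _ => ?_
  have h : HasFDerivAt (fun y => X y i)
      ((EuclideanSpace.proj (𝕜 := ℝ) i).comp (fderiv ℝ X x)) x :=
    (EuclideanSpace.proj (𝕜 := ℝ) i).hasFDerivAt.comp x hX.hasFDerivAt
  simp [mat, pd, h.fderiv]

lemma jac_deriv {X : Space n → Space n} {x : Space n} (hX : DifferentiableAt ℝ X x) :
    HasDerivAt (fun t => jac X t x) (-divg X x) 0 := by
  obtain ⟨P, hP⟩ : ∃ P : Polynomial ℝ, ∀ r : ℝ,
      Matrix.det (1 + r • mat (fderiv ℝ X x)) =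
        1 + (mat (fderiv ℝ X x)).trace * r + P.eval r * r ^ 2 :=
    ⟨_, fun r => Matrix.det_one_add_smul r (mat (fderiv ℝ X x))⟩
  have e : (fun t => jac X t x) = fun t =>
      1 + (mat (fderiv ℝ X x)).trace * (-t) + P.eval (-t) * (-t) ^ 2 :=
    funext fun t => by rw [jac_eq, hP]
  rw [e, ← trace_mat hX]
  have h := (((hasDerivAt_neg (0 : ℝ)).const_mul (mat (fderiv ℝ X x)).trace).const_add 1).add
    (((P.hasDerivAt (-0)).comp (0 : ℝ) (hasDerivAt_neg 0)).mul ((hasDerivAt_neg (0 : ℝ)).pow 2))
  exact h.congr_deriv (by simp)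

variable {X : Space n → Space n}

lemma hasFDerivAt_disp (hX : ContDiff ℝ 2 X) (t : ℝ) (x : Space n) :
    HasFDerivAt (disp X t) (dDisp X t x) x :=
  (hasFDerivAt_id x).sub (((hX.differentiable (by norm_num)) x).hasFDerivAt.const_smul t)

lemma contDiff_disp (hX : ContDiff ℝ 2 X) :
    ContDiff ℝ 2 fun p : ℝ × Space n => disp X p.1 p.2 :=
  contDiff_snd.sub (contDiff_fst.smul (hX.comp contDiff_snd))

lemma contDiff_dDisp (hX : ContDiff ℝ 2 X) :
    ContDiff ℝ 1 fun p : ℝ × Space n => dDisp X p.1 p.2 :=
  contDiff_const.sub (contDiff_fst.smul ((hX.fderiv_right (by norm_num)).comp contDiff_snd))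

lemma contDiff_jac (hX : ContDiff ℝ 2 X) :
    ContDiff ℝ 1 fun p : ℝ × Space n => jac X p.1 p.2 := by
  have e : (fun p : ℝ × Space n => jac X p.1 p.2) =
      fun p => Matrix.det (1 + (-p.1) • mat (fderiv ℝ X p.2)) := funext fun p => jac_eq X p.1 p.2
  rw [e]
  simp only [Matrix.det_apply']
  refine ContDiff.sum fun σ _ => contDiff_const.mul (contDiff_prod fun i _ => ?_)
  simp only [Matrix.add_apply, Matrix.smul_apply, mat, Matrix.of_apply, smul_eq_mul]
  exact contDiff_const.add (contDiff_fst.neg.mul (contDiff_euclidean.1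
    (((hX.fderiv_right (by norm_num)).comp contDiff_snd).clm_apply contDiff_const) _))

lemma off_supp {x : Space n} (hx : x ∉ tsupport X) (t : ℝ) :
    X x = 0 ∧ fderiv ℝ X x = 0 ∧ disp X t x = x ∧ dDisp X t x = 1 ∧ jac X t x = 1 := by
  have h0 : X x = 0 := image_eq_zero_of_notMem_tsupport hx
  have h1 : fderiv ℝ X x = 0 := fderiv_of_notMem_tsupport ℝ hx
  have h2 : dDisp X t x = 1 := by
    have h3 : t • fderiv ℝ X x = 0 := by ext v; simp [h1]
    rw [dDisp, h3, sub_zero]
  refine ⟨h0, h1, by rw [disp, h0, smul_zero, sub_zero], h2, ?_⟩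
  rw [jac, h2, ContinuousLinearMap.det]
  simp

/-- A deformation which is a homeomorphism with positive Jacobian. -/
structure Good (X : Space n → Space n) (t : ℝ) : Prop where
  homeo : ∃ e : Space n ≃ₜ Space n, ⇑e = disp X t
  jac_pos : ∀ x, 0 < jac X t x

lemma eventually_good (hX : ContDiff ℝ 2 X) (hXc : HasCompactSupport X) :
    ∀ᶠ t in 𝓝 (0 : ℝ), Good X t := by
  obtain ⟨L, hL⟩ := ContDiff.lipschitzWith_of_hasCompactSupport hXc
    (hX.of_le (by norm_num) : ContDiff ℝ 1 X) one_ne_zero
  have hhom : ∀ᶠ t in 𝓝 (0 : ℝ), ∃ e : Space n ≃ₜ Space n, ⇑e = disp X t := by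
    have hδ : (0 : ℝ) < 1 / (2 * (L : ℝ) + 2) := by positivity
    filter_upwards [Metric.ball_mem_nhds (0 : ℝ) hδ] with t ht
    rw [Metric.mem_ball, Real.dist_eq, sub_zero] at ht
    have ha : ApproximatesLinearOn (disp X t)
        ((ContinuousLinearEquiv.refl ℝ (Space n) : Space n ≃L[ℝ] Space n) : Space n →L[ℝ] Space n)
        univ (1 / 2) := by
      intro x _ y _
      have e : disp X t x - disp X t y - ((ContinuousLinearEquiv.refl ℝ (Space n) :
          Space n ≃L[ℝ] Space n) : Space n →L[ℝ] Space n) (x - y) = t • (X y - X x) := by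
        simp [disp, smul_sub]
        abel
      rw [e, norm_smul, Real.norm_eq_abs]
      have h := hL.dist_le_mul y x
      rw [dist_eq_norm, dist_eq_norm] at h
      have hc : |t| * L ≤ 1 / 2 := by
        rw [lt_div_iff₀ (by positivity)] at ht
        nlinarith [abs_nonneg t]
      calc |t| * ‖X y - X x‖ ≤ |t| * ((L : ℝ) * ‖y - x‖) :=
            mul_le_mul_of_nonneg_left h (abs_nonneg t)
        _ ≤ ((1 / 2 : ℝ≥0) : ℝ) * ‖x - y‖ := by
            rw [← mul_assoc, norm_sub_rev y x]
            refine mul_le_mul_of_nonneg_right ?_ (norm_nonneg _)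
            simpa using hc
    refine ⟨ha.toHomeomorph _ ?_, rfl⟩
    rcases subsingleton_or_nontrivial (Space n) with hs | hs
    · exact Or.inl hs
    · refine Or.inr ?_
      simp [ContinuousLinearMap.nnnorm_id]
      exact inv_lt_one_of_one_lt₀ one_lt_two
  have hpos : ∀ᶠ t in 𝓝 (0 : ℝ), ∀ x ∈ tsupport X, 0 < jac X t x := by
    refine IsCompact.eventually_forall_of_forall_eventually hXc fun x _ => ?_
    have h0 : (0 : ℝ) < jac X (0, x).1 (0, x).2 := by
      simp [jac, dDisp, ContinuousLinearMap.det]
    exact (contDiff_jac hX).continuous.continuousAt.eventually_const_lt h0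
  filter_upwards [hhom, hpos] with t h1 h2
  exact ⟨h1, fun x => (em (x ∈ tsupport X)).elim (h2 x) fun h => by
    rw [(off_supp h t).2.2.2.2]; exact one_pos⟩

lemma Good.image_measurable {t : ℝ} (h : Good X t) {E : Set (Space n)} (hE : MeasurableSet E) :
    MeasurableSet (disp X t '' E) := by
  obtain ⟨e, he⟩ := h.homeo
  rw [← he]
  exact e.measurableEmbedding.measurableSet_image.2 hE

lemma Good.injective {t : ℝ} (h : Good X t) : Function.Injective (disp X t) := by
  obtain ⟨e, he⟩ := h.homeo
  exact he ▸ e.injective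

lemma Good.integral_image (hX : ContDiff ℝ 2 X) {t : ℝ} (h : Good X t) {E : Set (Space n)}
    (hE : MeasurableSet E) (f : Space n → ℝ) :
    ∫ y in disp X t '' E, f y = ∫ x in E, jac X t x * f (disp X t x) := by
  rw [integral_image_eq_integral_abs_det_fderiv_smul volume hE
    (fun x _ => (hasFDerivAt_disp hX t x).hasFDerivWithinAt) h.injective.injOn]
  exact setIntegral_congr_fun hE fun x _ => by
    show |jac X t x| • f (disp X t x) = _
    rw [abs_of_pos (h.jac_pos x), smul_eq_mul]

lemma Good.integrableOn_image (hX : ContDiff ℝ 2 X) {t : ℝ} (h : Good X t) {E : Set (Space n)}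
    (hE : MeasurableSet E) (f : Space n → ℝ) :
    IntegrableOn f (disp X t '' E) ↔ IntegrableOn (fun x => jac X t x * f (disp X t x)) E := by
  rw [integrableOn_image_iff_integrableOn_abs_det_fderiv_smul volume hE
    (fun x _ => (hasFDerivAt_disp hX t x).hasFDerivWithinAt) h.injective.injOn]
  refine integrableOn_congr_fun (fun x _ => ?_) hE
  show |jac X t x| • f (disp X t x) = _
  rw [abs_of_pos (h.jac_pos x), smul_eq_mul]

lemma Good.integral_comp (hX : ContDiff ℝ 2 X) {t : ℝ} (h : Good X t) (f : Space n → ℝ) :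
    ∫ y, f y = ∫ x, jac X t x * f (disp X t x) := by
  have e : disp X t '' univ = univ := by
    obtain ⟨e, he⟩ := h.homeo
    rw [← he, image_univ, e.range_coe]
  have := h.integral_image hX MeasurableSet.univ f
  rwa [e, setIntegral_univ, setIntegral_univ] at this

lemma Good.dDisp_inverse (hX : ContDiff ℝ 2 X) {t : ℝ} (h : Good X t) (x : Space n) :
    (dDisp X t x).IsInvertible :=
  ⟨(dDisp X t x).toContinuousLinearEquivOfDetNeZero (h.jac_pos x).ne', rfl⟩

lemma integral_mul_divg {u : Space n → ℝ} (hu : ContDiff ℝ 1 u) {V : Space n → Space n}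
    (hV : ContDiff ℝ 1 V) (hVc : HasCompactSupport V) :
    ∫ x, u x * divg V x = -∫ x, fderiv ℝ u x (V x) := by
  have hVi : ∀ i, ContDiff ℝ 1 fun x => V x i := fun i => contDiff_euclidean.1 hV i
  have hVic : ∀ i, HasCompactSupport fun x => V x i := fun i =>
    hVc.comp_left (g := fun v : Space n => v i) rfl
  have a1 : ∀ i, Integrable fun x => pd i u x * V x i := fun i =>
    ((continuous_pd hu i).mul (hVi i).continuous).integrable_of_hasCompactSupport (hVic i).mul_left
  have a2 : ∀ i, Integrable fun x => u x * pd i (fun y => V y i) x := fun i =>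
    (hu.continuous.mul (continuous_pd (hVi i) i)).integrable_of_hasCompactSupport
      (HasCompactSupport.mul_left ((hVic i).fderiv_apply (𝕜 := ℝ) _))
  have ibp : ∀ i, ∫ x, u x * pd i (fun y => V y i) x = -∫ x, pd i u x * V x i := fun i =>
    integral_mul_fderiv_eq_neg_fderiv_mul_of_integrable (a1 i) (a2 i)
      ((hu.continuous.mul (hVi i).continuous).integrable_of_hasCompactSupport (hVic i).mul_left)
      (fun x _ => hu.differentiable one_ne_zero x) (fun x _ => (hVi i).differentiable one_ne_zero x)
  simp only [divg, Finset.mul_sum]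
  rw [integral_finsetSum _ fun i _ => a2 i]
  simp only [ibp, Finset.sum_neg_distrib]
  rw [← integral_finsetSum _ fun i _ => a1 i]
  refine congrArg _ (integral_congr_ae (ae_of_all _ fun x => ?_))
  exact (apply_eq_sum (fderiv ℝ u x) (V x)).symm

/-- The Piola transform. -/
def piola (X : Space n → Space n) (t : ℝ) (W : Space n → Space n) (x : Space n) : Space n :=
  jac X t x • (dDisp X t x).inverse (W (disp X t x))

lemma Good.piola_spec (hX : ContDiff ℝ 2 X) {t : ℝ} (h : Good X t) {W : Space n → Space n}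
    (hW : ContDiff ℝ 1 W) (hWc : HasCompactSupport W) :
    ContDiff ℝ 1 (piola X t W) ∧ HasCompactSupport (piola X t W) ∧
      ∀ x, divg (piola X t W) x = jac X t x * divg W (disp X t x) := by
  have hpath : ContDiff ℝ 2 fun x : Space n => ((t, x) : ℝ × Space n) :=
    contDiff_const.prodMk contDiff_id
  have hdisp : ContDiff ℝ 2 (disp X t) := (contDiff_disp hX).comp hpath
  have hjac : ContDiff ℝ 1 fun x => jac X t x :=
    (contDiff_jac hX).comp (hpath.of_le (by norm_num))
  have hinv : ContDiff ℝ 1 fun x => (dDisp X t x).inverse := by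
    refine contDiff_iff_contDiffAt.2 fun x => ?_
    exact (h.dDisp_inverse hX x).contDiffAt_map_inverse.comp x
      (((contDiff_dDisp hX).comp (hpath.of_le (by norm_num))).contDiffAt)
  have hV : ContDiff ℝ 1 (piola X t W) :=
    hjac.smul (hinv.clm_apply (hW.comp (hdisp.of_le (by norm_num))))
  obtain ⟨e, he⟩ := h.homeo
  have hVc : HasCompactSupport (piola X t W) := by
    refine (hWc.comp_homeomorph e).mono fun x hx hx' => hx ?_
    rw [Function.comp_apply, he] at hx'
    simp [piola, hx']
  refine ⟨hV, hVc, fun x => ?_⟩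
  obtain ⟨F, hF⟩ : ∃ F : Space n → ℝ,
      F = fun x => divg (piola X t W) x - jac X t x * divg W (disp X t x) := ⟨_, rfl⟩
  have hFcont : Continuous F := hF ▸ (continuous_divg hV).sub
    (hjac.continuous.mul ((continuous_divg hW).comp hdisp.continuous))
  have key : ∀ ξ : Space n → ℝ, ContDiff ℝ 1 ξ → ∫ x, ξ (disp X t x) * F x = 0 := by
    intro ξ hξ
    have hu : ContDiff ℝ 1 fun x => ξ (disp X t x) := hξ.comp (hdisp.of_le (by norm_num))
    have i1 : Integrable fun x => ξ (disp X t x) * divg (piola X t W) x :=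
      (hu.continuous.mul (continuous_divg hV)).integrable_of_hasCompactSupport
        (hasCompactSupport_divg hVc).mul_left
    have hcs : HasCompactSupport fun x => divg W (disp X t x) :=
      he ▸ (hasCompactSupport_divg hWc).comp_homeomorph e
    have i2 : Integrable fun x => jac X t x * (ξ (disp X t x) * divg W (disp X t x)) :=
      (hjac.continuous.mul (hu.continuous.mul ((continuous_divg hW).comp hdisp.continuous))
        ).integrable_of_hasCompactSupport hcs.mul_left.mul_left
    have e2 : ∀ x, ξ (disp X t x) * F x = ξ (disp X t x) * divg (piola X t W) x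
        - jac X t x * (ξ (disp X t x) * divg W (disp X t x)) := fun x => by
      simp only [hF]; ring
    simp only [e2]
    rw [integral_sub i1 i2, ← h.integral_comp hX fun y => ξ y * divg W y,
      integral_mul_divg hu hV hVc, integral_mul_divg hξ hW hWc,
      h.integral_comp hX fun y => fderiv ℝ ξ y (W y), sub_eq_zero]
    refine congrArg _ (integral_congr_ae (ae_of_all _ fun z => ?_))
    have hd : fderiv ℝ (fun x => ξ (disp X t x)) z = (fderiv ℝ ξ (disp X t z)).comp (dDisp X t z) :=
      (((hξ.differentiable one_ne_zero) _).hasFDerivAt.comp z (hasFDerivAt_disp hX t z)).fderiv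
    simp only [hd, ContinuousLinearMap.comp_apply, piola, map_smul, smul_eq_mul]
    rw [(h.dDisp_inverse hX z).self_apply_inverse]
  obtain ⟨q, hq⟩ : ∃ q : Space n → ℝ, q = fun y => F (e.symm y) / jac X t (e.symm y) := ⟨_, rfl⟩
  have hqc : Continuous q := hq ▸ (hFcont.comp e.symm.continuous).div
    (hjac.continuous.comp e.symm.continuous) fun y => (h.jac_pos _).ne'
  have hq0 : ∀ᵐ y, q y = 0 := by
    refine ae_eq_zero_of_integral_contDiff_smul_eq_zero hqc.locallyIntegrable fun ξ hξ _ => ?_
    rw [h.integral_comp hX fun y => ξ y • q y]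
    refine Eq.trans (integral_congr_ae (ae_of_all _ fun z => ?_))
      (key ξ (hξ.of_le (by exact_mod_cast le_top)))
    simp only [hq, smul_eq_mul, ← he, Homeomorph.symm_apply_apply]
    field_simp [(h.jac_pos z).ne']
  have hzero : q = fun _ => 0 := (hqc.ae_eq_iff_eq volume continuous_const).1 hq0
  have := congrFun hzero (e x)
  simp only [hq, Homeomorph.symm_apply_apply, div_eq_zero_iff, (h.jac_pos x).ne', or_false, hF,
    sub_eq_zero] at this
  exact this

end

end Vale.Agent.P219.Univ.FirstVar
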