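import Mathlib
import Vale.Agent.P219.Univ.FirstVar.Map

/-!
# The pointwise first order bound for the pulled back fields
-/

open MeasureTheory Filter Topology Set
open scoped ENNReal ContDiff NNReal RealInnerProductSpace

namespace Vale.Agent.P219.Univ.FirstVar

open Vale.Agent.P219

noncomputable section

variable {n : ℕ} {g : MetricField n} {X : Space n → Space n}

/-- The ratio of the volume elements. -/
def ratio (g : MetricField n) (X : Space n → Space n) (t : ℝ) (x : Space n) : ℝ :=
  jac X t x * dens g (disp X t x) / dens g x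

lemma disp_zero (X : Space n → Space n) (x : Space n) : disp X 0 x = x := by simp [disp]

lemma dDisp_zero (X : Space n → Space n) (x : Space n) : dDisp X 0 x = 1 := by
  have h : (0 : ℝ) • fderiv ℝ X x = 0 := by ext v; simp
  rw [dDisp, h, sub_zero]

lemma jac_zero (X : Space n → Space n) (x : Space n) : jac X 0 x = 1 := by
  rw [jac_eq]; simp

lemma ratio_zero (hg : IsMetric g) (X : Space n → Space n) (x : Space n) : ratio g X 0 x = 1 := by
  rw [ratio, disp_zero, jac_zero, one_mul, div_self (dens_pos hg x).ne']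

lemma contDiff_ratio (hg : IsMetric g) (hX : ContDiff ℝ 2 X) :
    ContDiff ℝ 1 fun p : ℝ × Space n => ratio g X p.1 p.2 :=
  ((contDiff_jac hX).mul (((contDiff_dens hg).of_le (by exact_mod_cast le_top)).comp
      ((contDiff_disp hX).of_le (by norm_num)))).div
    (((contDiff_dens hg).of_le (by exact_mod_cast le_top)).comp contDiff_snd)
    fun p => (dens_pos hg _).ne'

lemma disp_deriv (X : Space n → Space n) (x : Space n) :
    HasDerivAt (fun t => disp X t x) (-(X x)) 0 := by
  have h := ((hasDerivAt_id (0 : ℝ)).smul_const (X x)).const_sub x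
  simpa [disp] using h

lemma gDiv_formula (hg : IsMetric g) {Y : Space n → Space n} {x : Space n}
    (hY : DifferentiableAt ℝ Y x) :
    gDiv g Y x = divg Y x + fderiv ℝ (dens g) x (Y x) / dens g x := by
  have hd : DifferentiableAt ℝ (dens g) x :=
    ((contDiff_dens hg).differentiable (by simp)) x
  rw [gDiv, divg_smul hd hY]
  field_simp [(dens_pos hg x).ne']
  ring

lemma ratio_deriv (hg : IsMetric g) (hX : ContDiff ℝ 2 X) (x : Space n) :
    HasDerivAt (fun t => ratio g X t x) (-gDiv g X x) 0 := by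
  have hd : HasFDerivAt (dens g) (fderiv ℝ (dens g) x) (disp X 0 x) := by
    rw [disp_zero]
    exact (((contDiff_dens hg).differentiable (by simp)) x).hasFDerivAt
  have hXd := hX.differentiable (by norm_num) x
  have h := ((jac_deriv hXd).mul (hd.comp_hasDerivAt (0 : ℝ) (disp_deriv X x))).div_const
    (dens g x)
  refine h.congr_deriv ?_
  simp only [Function.comp_apply, disp_zero, jac_zero, gDiv_formula hg hXd, map_neg]
  field_simp [(dens_pos hg x).ne']
  ring

/-- The squared length of the pulled back vector. -/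
def sqPull (g : MetricField n) (X : Space n → Space n) (t : ℝ) (p : Space n × Space n) : ℝ :=
  ratio g X t p.1 ^ 2 * g p.1 p.2 p.2

/-- The squared length of the vector. -/
def sqPush (g : MetricField n) (X : Space n → Space n) (t : ℝ) (p : Space n × Space n) : ℝ :=
  g (disp X t p.1) (dDisp X t p.1 p.2) (dDisp X t p.1 p.2)

lemma contDiff_quad (hg : IsMetric g) {F : Type*} [NormedAddCommGroup F] [NormedSpace ℝ F]
    {a b : F → Space n} (ha : ContDiff ℝ 1 a) (hb : ContDiff ℝ 1 b) :
    ContDiff ℝ 1 fun q => g (a q) (b q) (b q) := by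
  have hg1 : ContDiff ℝ 1 g := hg.smooth.of_le (by exact_mod_cast le_top)
  have h2 : ContDiff ℝ 1 fun q => g (a q) := hg1.comp ha
  exact (h2.clm_apply hb).clm_apply hb

lemma contDiff_fst2 {n : ℕ} :
    ContDiff ℝ 1 fun q : ℝ × (Space n × Space n) => ((q.1, q.2.1) : ℝ × Space n) :=
  contDiff_fst.prodMk (contDiff_fst.comp contDiff_snd)

lemma contDiff_sqPull (hg : IsMetric g) (hX : ContDiff ℝ 2 X) :
    ContDiff ℝ 1 fun q : ℝ × (Space n × Space n) => sqPull g X q.1 q.2 := by
  have h1 := (contDiff_ratio hg hX).comp (contDiff_fst2 (n := n))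
  have h4 := contDiff_quad hg (F := ℝ × (Space n × Space n)) (contDiff_fst.comp contDiff_snd)
    (contDiff_snd.comp contDiff_snd)
  exact ContDiff.mul (ContDiff.pow h1 2) h4

lemma contDiff_sqPush (hg : IsMetric g) (hX : ContDiff ℝ 2 X) :
    ContDiff ℝ 1 fun q : ℝ × (Space n × Space n) => sqPush g X q.1 q.2 := by
  have h1 := ((contDiff_disp hX).of_le (show (1 : ℕ∞ω) ≤ 2 by norm_num)).comp (contDiff_fst2 (n := n))
  have h2 := ((contDiff_dDisp hX).comp (contDiff_fst2 (n := n))).clm_apply
    (contDiff_snd.comp (contDiff_snd (E := ℝ) (F := Space n × Space n)))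
  exact contDiff_quad hg h1 h2

lemma sqPush_deriv (hg : IsMetric g) (hX : ContDiff ℝ 2 X) (x w : Space n) :
    HasDerivAt (fun t => sqPush g X t (x, w)) (-(2 * g x (cov g X x w) w)) 0 := by
  have hgd : HasFDerivAt g (fderiv ℝ g x) (disp X 0 x) := by
    rw [disp_zero]
    exact ((hg.smooth.differentiable (by simp)) x).hasFDerivAt
  have hv : HasDerivAt (fun t => dDisp X t x w) (-(fderiv ℝ X x w)) 0 := by
    have h := ((hasDerivAt_id (0 : ℝ)).smul_const (fderiv ℝ X x w)).const_sub w
    simpa [dDisp] using h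
  have ha : HasDerivAt (fun t => g (disp X t x)) (fderiv ℝ g x (-(X x))) 0 :=
    HasFDerivAt.comp_hasDerivAt (f := fun t => disp X t x) (l := g) (l' := fderiv ℝ g x) (0 : ℝ)
      hgd (disp_deriv X x)
  have hb : HasDerivAt (fun t => g (disp X t x) (dDisp X t x w))
      (fderiv ℝ g x (-(X x)) (dDisp X 0 x w) + g (disp X 0 x) (-(fderiv ℝ X x w))) 0 :=
    ha.clm_apply hv
  have h : HasDerivAt (fun t => g (disp X t x) (dDisp X t x w) (dDisp X t x w))
      ((fderiv ℝ g x (-(X x)) (dDisp X 0 x w) + g (disp X 0 x) (-(fderiv ℝ X x w))) (dDisp X 0 x w) +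
        g (disp X 0 x) (dDisp X 0 x w) (-(fderiv ℝ X x w))) 0 :=
    hb.clm_apply hv
  refine h.congr_deriv ?_
  simp only [Function.comp_apply, disp_zero, dDisp_zero, one_apply_eq_self, map_neg,
    cov, add_apply, map_add, neg_apply]
  rw [g_compat hg x (X x) w w, hg.symm x w (gam g x (X x) w), gam_symm hg x (X x) w,
    hg.symm x w (fderiv ℝ X x w)]
  ring

lemma gam_zero_right (x v : Space n) : gam g x v 0 = 0 := by
  have h : chris g x v 0 = 0 := by
    ext z
    simp [chris]
  rw [gam, h, sharp, map_zero, smul_zero]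

lemma theta_nonpos (hg : IsMetric g) (hX : ContDiff ℝ 2 X) {θ Λ : Space n → ℝ} {l : ℝ}
    (hθ : ∀ x v, θ x + l * g x (X x) v + Λ x * (g x v v - 1) ≤
      gDiv g X x * g x v v - g x (cov g X x v) v)
    {x : Space n} (hx : x ∉ tsupport X) (hx0 : x ≠ 0) : θ x ≤ 0 := by
  obtain ⟨h0, h1, -⟩ := off_supp hx 0
  have hd : gDiv g X x = 0 := by
    rw [gDiv_formula hg (hX.differentiable (by norm_num) x), h0, map_zero, zero_div, add_zero,
      divg_eq_zero_of_notMem hx]
  set v := (Real.sqrt (g x x x))⁻¹ • x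
  have hc : cov g X x v = 0 := by
    rw [cov, h0, h1, gam_zero_right]
    simp
  have hp := hg.pos x x hx0
  have hv : g x v v = 1 := by
    simp only [v, map_smul, smul_apply, smul_eq_mul]
    rw [← mul_assoc, ← mul_inv, Real.mul_self_sqrt hp.le, inv_mul_cancel₀ hp.ne']
  have h := hθ x v
  rw [hd, hc, h0, hv] at h
  simpa using h

/-- The squared length of the pulled back vector after adding the flux field, less the bound. -/
def excess (g : MetricField n) (X : Space n → Space n) (θ Λ : Space n → ℝ) (l ε t : ℝ)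
    (p : Space n × Space n) : ℝ :=
  sqPull g X t p + 2 * (t * l) * ratio g X t p.1 * g p.1 (X p.1) p.2 +
      (t * l) ^ 2 * g p.1 (X p.1) (X p.1) - (1 + t * ε - t * θ p.1) ^ 2 +
    (1 - 2 * t * Λ p.1) * (1 - sqPush g X t p)

lemma comb_deriv {A B Q : ℝ → ℝ} {a b q s : ℝ} (l e G L : ℝ) (hA : HasDerivAt A a s)
    (hB : HasDerivAt B b s) (hQ : HasDerivAt Q q s) :
    HasDerivAt (fun t => A t + 2 * (t * l) * Q t + (t * l) ^ 2 * G - (1 + t * e) ^ 2 +
        (1 - 2 * t * L) * (1 - B t))
      (a + 2 * l * Q s + 2 * (s * l) * q + 2 * (s * l) * l * G - 2 * (1 + s * e) * e -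
        2 * L * (1 - B s) - (1 - 2 * s * L) * b) s := by
  have h1 := (((hasDerivAt_id s).mul_const l).const_mul 2).mul hQ
  have h2 := (((hasDerivAt_id s).mul_const l).pow 2).mul_const G
  have h3 := (((hasDerivAt_id s).mul_const e).const_add 1).pow 2
  have h4 := ((((hasDerivAt_id s).const_mul 2).mul_const L).const_sub 1).mul (hB.const_sub 1)
  refine ((((hA.add h1).add h2).sub h3).add h4).congr_deriv ?_
  simp only [id_eq, Nat.cast_ofNat]
  ring

/-- The bound on a compact set. -/
lemma bound_on_compact (hg : IsMetric g) (hX : ContDiff ℝ 2 X) {θ Λ : Space n → ℝ} {l : ℝ}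
    (hθc : Continuous θ) (hΛc : Continuous Λ)
    (hθ : ∀ x v, θ x + l * g x (X x) v + Λ x * (g x v v - 1) ≤
      gDiv g X x * g x v v - g x (cov g X x v) v)
    {K : Set (Space n × Space n)} (hK : IsCompact K) {ε : ℝ} (hε : 0 < ε) :
    ∀ᶠ t in 𝓝[>] (0 : ℝ), ∀ p ∈ K, excess g X θ Λ l ε t p ≤ 0 := by
  obtain ⟨A, hA⟩ : ∃ A : ℝ × (Space n × Space n) → ℝ, A = fun q => sqPull g X q.1 q.2 := ⟨_, rfl⟩
  obtain ⟨B, hB⟩ : ∃ B : ℝ × (Space n × Space n) → ℝ, B = fun q => sqPush g X q.1 q.2 := ⟨_, rfl⟩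
  obtain ⟨Q, hQ⟩ : ∃ Q : ℝ × (Space n × Space n) → ℝ,
      Q = fun q => ratio g X q.1 q.2.1 * g q.2.1 (X q.2.1) q.2.2 := ⟨_, rfl⟩
  have hAs : ContDiff ℝ 1 A := hA ▸ contDiff_sqPull hg hX
  have hBs : ContDiff ℝ 1 B := hB ▸ contDiff_sqPush hg hX
  have hX1 : ContDiff ℝ 1 fun q : ℝ × (Space n × Space n) => X q.2.1 :=
    (hX.of_le (by norm_num)).comp (contDiff_fst.comp contDiff_snd)
  have hgq : ContDiff ℝ 1 fun q : ℝ × (Space n × Space n) => g q.2.1 :=
    (hg.smooth.of_le (by exact_mod_cast le_top)).comp (contDiff_fst.comp contDiff_snd)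
  have hQs : ContDiff ℝ 1 Q := by
    rw [hQ]
    have h1 := (contDiff_ratio hg hX).comp (contDiff_fst2 (n := n))
    exact ContDiff.mul h1 ((hgq.clm_apply hX1).clm_apply (contDiff_snd.comp contDiff_snd))
  obtain ⟨D, hD⟩ : ∃ D : ℝ × (Space n × Space n) → ℝ, D = fun q => fderiv ℝ A q (1, 0) +
      2 * l * Q q + 2 * (q.1 * l) * fderiv ℝ Q q (1, 0) +
      2 * (q.1 * l) * l * g q.2.1 (X q.2.1) (X q.2.1) -
      2 * (1 + q.1 * (ε - θ q.2.1)) * (ε - θ q.2.1) -
      2 * Λ q.2.1 * (1 - B q) - (1 - 2 * q.1 * Λ q.2.1) * fderiv ℝ B q (1, 0) := ⟨_, rfl⟩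
  have hc : Continuous fun q : ℝ × (Space n × Space n) => ε - θ q.2.1 :=
    continuous_const.sub (hθc.comp (continuous_fst.comp continuous_snd))
  have hL : Continuous fun q : ℝ × (Space n × Space n) => Λ q.2.1 :=
    hΛc.comp (continuous_fst.comp continuous_snd)
  have hQ' := (hQs.continuous_fderiv one_ne_zero).clm_apply
    (continuous_const (y := ((1 : ℝ), (0 : Space n × Space n))))
  have hG : Continuous fun q : ℝ × (Space n × Space n) => g q.2.1 (X q.2.1) (X q.2.1) :=
    ((hgq.clm_apply hX1).clm_apply hX1).continuous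
  have hA' := (hAs.continuous_fderiv one_ne_zero).clm_apply
    (continuous_const (y := ((1 : ℝ), (0 : Space n × Space n))))
  have hB' := (hBs.continuous_fderiv one_ne_zero).clm_apply
    (continuous_const (y := ((1 : ℝ), (0 : Space n × Space n))))
  have hAc := hAs.continuous
  have hBc := hBs.continuous
  have hQc := hQs.continuous
  have hDc : Continuous D := by
    rw [hD]
    exact ((((((hA'.add (continuous_const.mul hQc)).add
      ((continuous_const.mul (continuous_fst.mul continuous_const)).mul hQ')).add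
      (((continuous_const.mul (continuous_fst.mul continuous_const)).mul continuous_const).mul hG)).sub
      ((continuous_const.mul (continuous_const.add (continuous_fst.mul hc))).mul hc)).sub
      ((continuous_const.mul hL).mul (continuous_const.sub hBc))).sub
      ((continuous_const.sub ((continuous_const.mul continuous_fst).mul hL)).mul hB'))
  have hline : ∀ (f : ℝ × (Space n × Space n) → ℝ), ContDiff ℝ 1 f → ∀ s p,
      HasDerivAt (fun t => f (t, p)) (fderiv ℝ f (s, p) (1, 0)) s := fun f hf s p =>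
    ((hf.differentiable one_ne_zero) (s, p)).hasFDerivAt.comp_hasDerivAt s
      ((hasDerivAt_id s).prodMk (hasDerivAt_const s p))
  have he : ∀ t p, excess g X θ Λ l ε t p = A (t, p) + 2 * (t * l) * Q (t, p) +
      (t * l) ^ 2 * g p.1 (X p.1) (X p.1) - (1 + t * (ε - θ p.1)) ^ 2 +
      (1 - 2 * t * Λ p.1) * (1 - B (t, p)) := fun t p => by
    simp only [excess, hA, hB, hQ]
    ring
  have hder : ∀ s p, HasDerivAt (fun t => excess g X θ Λ l ε t p) (D (s, p)) s := fun s p => by
    rw [hD, show (fun t => excess g X θ Λ l ε t p) = _ from funext fun t => he t p]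
    exact comb_deriv l (ε - θ p.1) (g p.1 (X p.1) (X p.1)) (Λ p.1) (hline A hAs s p)
      (hline B hBs s p) (hline Q hQs s p)
  have hneg : ∀ p ∈ K, D (0, p) < 0 := by
    intro p _
    have hA0 : fderiv ℝ A (0, p) (1, 0) = -(2 * gDiv g X p.1 * g p.1 p.2 p.2) := by
      have h := ((ratio_deriv hg hX p.1).pow 2).mul_const (g p.1 p.2 p.2)
      have h' := hline A hAs 0 p
      simp only [hA, sqPull] at h' ⊢
      refine (h'.unique h).trans ?_
      simp [ratio_zero hg]
    have hB0 : fderiv ℝ B (0, p) (1, 0) = -(2 * g p.1 (cov g X p.1 p.2) p.2) := by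
      have h' := hline B hBs 0 p
      simp only [hB] at h' ⊢
      exact h'.unique (sqPush_deriv hg hX p.1 p.2)
    have hB00 : B (0, p) = g p.1 p.2 p.2 := by simp [hB, sqPush, disp_zero, dDisp_zero]
    have hQ0 : Q (0, p) = g p.1 (X p.1) p.2 := by simp [hQ, ratio_zero hg]
    simp only [hD, hA0, hB0, hB00, hQ0, zero_mul, mul_zero, add_zero, sub_zero]
    nlinarith [hθ p.1 p.2]
  have hev := hK.eventually_forall_of_forall_eventually
    (x₀ := (0 : ℝ)) (P := fun s p => D (s, p) < 0)
    fun p hp => hDc.continuousAt.eventually_lt_const (hneg p hp)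
  obtain ⟨δ, hδ, hball⟩ := Metric.eventually_nhds_iff.1 hev
  filter_upwards [Ioo_mem_nhdsGT hδ] with t ht p hp
  have hcont : ContinuousOn (fun t => excess g X θ Λ l ε t p) (Icc 0 t) :=
    fun s _ => (hder s p).continuousAt.continuousWithinAt
  obtain ⟨c, hc, hslope⟩ := exists_hasDerivAt_eq_slope
    (fun t => excess g X θ Λ l ε t p) (fun s => D (s, p)) ht.1 hcont fun s _ => hder s p
  have hlt : D (c, p) < 0 := hball (by
    rw [Real.dist_eq, sub_zero, abs_of_pos hc.1]; linarith [hc.2, ht.2]) p hp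
  rw [hslope, sub_zero, div_neg_iff] at hlt
  have h0 : excess g X θ Λ l ε 0 p = 0 := by
    simp [excess, sqPull, sqPush, ratio_zero hg, disp_zero, dDisp_zero]
  rcases hlt with ⟨-, h⟩ | ⟨h, -⟩
  · linarith [ht.1]
  · linarith

/-- The pointwise bound for all small times. -/
lemma bound (hg : IsMetric g) (hX : ContDiff ℝ 2 X) (hXc : HasCompactSupport X)
    {θ Λ : Space n → ℝ} {l : ℝ} (hθc : Continuous θ) (hΛc : Continuous Λ)
    (hθ : ∀ x v, θ x + l * g x (X x) v + Λ x * (g x v v - 1) ≤
      gDiv g X x * g x v v - g x (cov g X x v) v)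
    {ε : ℝ} (hε : 0 < ε) :
    ∀ᶠ t in 𝓝[>] (0 : ℝ), ∀ x, 0 ≤ 1 + t * ε - t * θ x ∧
      ∀ w, sqPush g X t (x, w) ≤ 1 →
        sqPull g X t (x, w) + 2 * (t * l) * ratio g X t x * g x (X x) w +
          (t * l) ^ 2 * g x (X x) (X x) ≤ (1 + t * ε - t * θ x) ^ 2 := by
  set S := tsupport X ∪ {0}
  have hS : IsCompact S := hXc.isCompact.union isCompact_singleton
  have hgc : Continuous fun p : Space n × Space n => g p.1 p.2 p.2 :=
    (contDiff_quad hg (F := Space n × Space n) contDiff_fst contDiff_snd).continuous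
  -- a lower bound for the metric on the support
  obtain ⟨B, hB0, hB⟩ : ∃ B : ℝ, 0 < B ∧ ∀ x ∈ S, ∀ u, ‖u‖ = B → 2 ≤ g x u u := by
    rcases (S ×ˢ Metric.sphere (0 : Space n) 1).eq_empty_or_nonempty with he | hne
    · refine ⟨1, one_pos, fun x hx u hu => ?_⟩
      have : (x, u) ∈ S ×ˢ Metric.sphere (0 : Space n) 1 := ⟨hx, by simp [hu]⟩
      simp [he] at this
    obtain ⟨q, hq, hmin⟩ := (hS.prod (isCompact_sphere (0 : Space n) 1)).exists_isMinOn hne
      hgc.continuousOn
    set m := g q.1 q.2 q.2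
    have hm : 0 < m := hg.pos q.1 q.2 fun h0 => by simpa [h0] using hq.2
    refine ⟨Real.sqrt (2 / m), by positivity, fun x hx u hu => ?_⟩
    have hBp : 0 < Real.sqrt (2 / m) := by positivity
    have h : m ≤ g x (‖u‖⁻¹ • u) (‖u‖⁻¹ • u) := hmin (show (x, ‖u‖⁻¹ • u) ∈ _ from
      ⟨hx, by simp [norm_smul, hu, abs_of_pos hBp, hBp.ne', abs_of_nonneg (Real.sqrt_nonneg _), (Real.sqrt_pos.2 hm).ne']⟩)
    simp only [map_smul, smul_apply, smul_eq_mul, hu] at h
    have e := Real.mul_self_sqrt (show (0 : ℝ) ≤ 2 / m by positivity)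
    have e' : Real.sqrt (2 / m) * Real.sqrt (2 / m) * m = 2 := by rw [e]; field_simp
    rw [← mul_assoc, ← mul_inv, le_inv_mul_iff₀ (by positivity)] at h
    linarith
  have hnn : ∀ᶠ t in 𝓝 (0 : ℝ), ∀ x ∈ S,
      0 < 1 + t * ε - t * θ x ∧ 0 < 1 - 2 * t * Λ x := by
    refine hS.eventually_forall_of_forall_eventually fun x _ => ?_
    have hcont : Continuous fun q : ℝ × Space n => 1 + q.1 * ε - q.1 * θ q.2 := by fun_prop
    have hcont' : Continuous fun q : ℝ × Space n => 1 - 2 * q.1 * Λ q.2 := by fun_prop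
    exact (hcont.continuousAt.eventually_const_lt (by simp)).and
      (hcont'.continuousAt.eventually_const_lt (by simp))
  have hout : ∀ᶠ t in 𝓝 (0 : ℝ), ∀ p ∈ S ×ˢ Metric.sphere (0 : Space n) B,
      1 < sqPush g X t p := by
    refine (hS.prod (isCompact_sphere (0 : Space n) B)).eventually_forall_of_forall_eventually
      fun p hp => ?_
    refine (contDiff_sqPush hg hX).continuous.continuousAt.eventually_const_lt ?_
    have := hB p.1 hp.1 p.2 (by simpa using hp.2)
    simp only [sqPush, disp_zero, dDisp_zero, one_apply_eq_self]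
    linarith
  filter_upwards [bound_on_compact hg hX hθc hΛc hθ (hS.prod (isCompact_closedBall (0 : Space n) B)) hε,
    hnn.filter_mono nhdsWithin_le_nhds, hout.filter_mono nhdsWithin_le_nhds,
    eventually_mem_nhdsWithin] with t hb hn ho ht x
  have ht0 : 0 < t := ht
  by_cases hx : x ∈ S
  · refine ⟨(hn x hx).1.le, fun w hw => ?_⟩
    have hwB : ‖w‖ ≤ B := by
      by_contra hlt
      rw [not_le] at hlt
      have hw0 : 0 < ‖w‖ := hB0.trans hlt
      have h := ho (x, (B / ‖w‖) • w) ⟨hx, by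
        simp [norm_smul, abs_of_pos hB0, hw0.ne']⟩
      have e2 : sqPush g X t (x, (B / ‖w‖) • w) = (B / ‖w‖) ^ 2 * sqPush g X t (x, w) := by
        simp only [sqPush, map_smul, smul_apply, smul_eq_mul]; ring
      rw [e2] at h
      have hr : B / ‖w‖ ≤ 1 := (div_le_one hw0).2 hlt.le
      nlinarith [pow_le_one₀ (n := 2) (div_pos hB0 hw0).le hr, sq_nonneg (B / ‖w‖)]
    have h := hb (x, w) ⟨hx, by simpa using hwB⟩
    simp only [excess] at h
    nlinarith [mul_nonneg (hn x hx).2.le (sub_nonneg.2 hw)]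
  · simp only [S, mem_union, mem_singleton_iff, not_or] at hx
    have hle := theta_nonpos hg hX hθ hx.1 hx.2
    have h1 : 1 ≤ 1 + t * ε - t * θ x := by nlinarith
    refine ⟨by linarith, fun w hw => ?_⟩
    obtain ⟨h0, -, h2, h3, h4⟩ := off_supp hx.1 t
    simp only [sqPull, sqPush, ratio, h2, h3, h4, one_apply_eq_self, one_mul,
      div_self (dens_pos hg x).ne', one_pow, h0, map_zero, zero_apply, mul_zero, add_zero] at hw ⊢
    nlinarith [one_le_pow₀ (n := 2) h1]

end

end Vale.Agent.P219.Univ.FirstVar
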